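import Vale.Agent.P113.H818.Slice

/-!
P113, part B: uniqueness of classical solutions of the forced Navier-Stokes equations on the flat
torus, by the energy estimate.
-/

open MeasureTheory Set

namespace Vale.Agent.P113.H818

/-- `u`, `p` is a classical solution on `[0,T]` with force `f`, viscosity `ν`, initial value `0`.
The partial derivatives are given as functions: `ut = ∂ₜ u`, `ux i = ∂ᵢ u`, `uxx i = ∂ᵢ ∂ᵢ u`,
`px i = ∂ᵢ p`. The derivatives and the equations are required in the open interval only. -/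
structure Sol (ν T : ℝ) (f : ℝ → (Fin 3 → ℝ) → Fin 3 → ℝ) (u ut : ℝ → (Fin 3 → ℝ) → Fin 3 → ℝ)
    (ux uxx : Fin 3 → ℝ → (Fin 3 → ℝ) → Fin 3 → ℝ) (p : ℝ → (Fin 3 → ℝ) → ℝ)
    (px : Fin 3 → ℝ → (Fin 3 → ℝ) → ℝ) : Prop where
  per_u : ∀ t ∈ Icc 0 T, ∀ x i, u t (x + Pi.single i 1) = u t x
  per_p : ∀ t ∈ Icc 0 T, ∀ x i, p t (x + Pi.single i 1) = p t x
  cont_u : ContinuousOn (fun z : ℝ × (Fin 3 → ℝ) => u z.1 z.2) (Icc 0 T ×ˢ univ)
  cont_ut : ContinuousOn (fun z : ℝ × (Fin 3 → ℝ) => ut z.1 z.2) (Icc 0 T ×ˢ univ)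
  cont_ux : ∀ i, ContinuousOn (fun z : ℝ × (Fin 3 → ℝ) => ux i z.1 z.2) (Icc 0 T ×ˢ univ)
  cont_uxx : ∀ i, ContinuousOn (fun z : ℝ × (Fin 3 → ℝ) => uxx i z.1 z.2) (Icc 0 T ×ˢ univ)
  cont_p : ContinuousOn (fun z : ℝ × (Fin 3 → ℝ) => p z.1 z.2) (Icc 0 T ×ˢ univ)
  cont_px : ∀ i, ContinuousOn (fun z : ℝ × (Fin 3 → ℝ) => px i z.1 z.2) (Icc 0 T ×ˢ univ)
  hut : ∀ t ∈ Ioo 0 T, ∀ x k, HasDerivAt (fun s => u s x k) (ut t x k) t
  hux : ∀ t ∈ Ioo 0 T, ∀ x i k,
    HasDerivAt (fun s => u t (Function.update x i s) k) (ux i t x k) (x i)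
  huxx : ∀ t ∈ Ioo 0 T, ∀ x i k,
    HasDerivAt (fun s => ux i t (Function.update x i s) k) (uxx i t x k) (x i)
  hpx : ∀ t ∈ Ioo 0 T, ∀ x i,
    HasDerivAt (fun s => p t (Function.update x i s)) (px i t x) (x i)
  eq : ∀ t ∈ Ioo 0 T, ∀ x k,
    ut t x k + ∑ i, u t x i * ux i t x k = -px k t x + ν * ∑ i, uxx i t x k + f t x k
  div : ∀ t ∈ Ioo 0 T, ∀ x, ∑ i, ux i t x i = 0
  init : ∀ x, u 0 x = 0
  mean : ∀ t ∈ Icc 0 T, ∫ x in Icc (0 : Fin 3 → ℝ) 1, p t x = 0

theorem closure_interior_cube :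
    closure (interior (Icc (0 : Fin 3 → ℝ) 1)) = Icc (0 : Fin 3 → ℝ) 1 := by
  have h1 : Icc (0 : Fin 3 → ℝ) 1 = Set.pi univ fun _ : Fin 3 => Icc (0 : ℝ) 1 := by
    rw [← Set.pi_univ_Icc]; rfl
  rw [h1, interior_pi_set finite_univ, closure_pi_set]
  congr 1
  ext i : 1
  exact closure_interior_Icc zero_ne_one

/-- a slice of a jointly continuous function is continuous -/
theorem slice_cont {α : Type*} [TopologicalSpace α] {T : ℝ} {g : ℝ → (Fin 3 → ℝ) → α}
    (h : ContinuousOn (fun z : ℝ × (Fin 3 → ℝ) => g z.1 z.2) (Icc 0 T ×ˢ univ)) {t : ℝ}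
    (ht : t ∈ Icc 0 T) : Continuous (g t) := by
  have h1 : ContinuousOn (fun x : Fin 3 → ℝ => g t x) univ :=
    h.comp (f := fun x : Fin 3 → ℝ => (t, x)) (by fun_prop) fun x _ => ⟨ht, mem_univ _⟩
  exact continuousOn_univ.1 h1

/-- a time line of a jointly continuous function is continuous -/
theorem line_cont {α : Type*} [TopologicalSpace α] {T : ℝ} {g : ℝ → (Fin 3 → ℝ) → α}
    (h : ContinuousOn (fun z : ℝ × (Fin 3 → ℝ) => g z.1 z.2) (Icc 0 T ×ˢ univ))
    (x : Fin 3 → ℝ) : ContinuousOn (fun t => g t x) (Icc 0 T) :=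
  h.comp (f := fun t : ℝ => (t, x)) (by fun_prop) fun t ht => ⟨ht, mem_univ _⟩

/-- a jointly continuous function is bounded on the compact time interval times the cube -/
theorem cube_bound {T : ℝ} {g : ℝ → (Fin 3 → ℝ) → ℝ}
    (h : ContinuousOn (fun z : ℝ × (Fin 3 → ℝ) => g z.1 z.2) (Icc 0 T ×ˢ univ)) :
    ∃ C : ℝ, 0 ≤ C ∧ ∀ t ∈ Icc 0 T, ∀ x ∈ Icc (0 : Fin 3 → ℝ) 1, |g t x| ≤ C := by
  obtain ⟨C, hC⟩ := ((isCompact_Icc (a := (0 : ℝ)) (b := T)).prod
    (isCompact_Icc (a := (0 : Fin 3 → ℝ)) (b := 1))).exists_bound_of_continuousOn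
    (h.mono (prod_mono_right (subset_univ _)))
  refine ⟨max C 0, le_max_right _ _, fun t ht x hx => ?_⟩
  exact (hC (t, x) ⟨ht, hx⟩).trans (le_max_left _ _)

/-- a point of the cube that differs by an integer vector -/
theorem exists_cube (x : Fin 3 → ℝ) : ∃ y ∈ Icc (0 : Fin 3 → ℝ) 1, ∃ n : Fin 3 → ℤ,
    x = y + fun i => (n i : ℝ) :=
  ⟨fun i => Int.fract (x i), ⟨fun i => Int.fract_nonneg _, fun i => (Int.fract_lt_one _).le⟩,
    fun i => ⌊x i⌋, by ext i; simp [Int.fract_add_floor]⟩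

/-- periodicity under integer vectors -/
theorem per_int {α : Type*} {g : (Fin 3 → ℝ) → α} (h : ∀ x i, g (x + Pi.single i 1) = g x)
    (x : Fin 3 → ℝ) (n : Fin 3 → ℤ) : g (x + fun i => (n i : ℝ)) = g x := by
  have h1 : ∀ (i : Fin 3) (m : ℕ) (y : Fin 3 → ℝ), g (y + Pi.single i (m : ℝ)) = g y := by
    intro i m
    induction m with
    | zero => intro y; simp
    | succ m ih =>
      intro y
      have : y + Pi.single i ((m + 1 : ℕ) : ℝ) = (y + Pi.single i (m : ℝ)) + Pi.single i 1 := by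
        rw [add_assoc, ← Pi.single_add]; push_cast; rfl
      rw [this, h, ih]
  have h2 : ∀ (i : Fin 3) (m : ℤ) (y : Fin 3 → ℝ), g (y + Pi.single i (m : ℝ)) = g y := by
    intro i m y
    rcases Int.eq_nat_or_neg m with ⟨k, rfl | rfl⟩
    · exact_mod_cast h1 i k y
    · have h3 := h1 i k (y + Pi.single i (((-(k : ℤ) : ℤ)) : ℝ))
      have h4 : y + Pi.single i (((-(k : ℤ) : ℤ)) : ℝ) + Pi.single i (k : ℝ) = y := by
        rw [add_assoc, ← Pi.single_add]; simp
      rw [h4] at h3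
      exact h3.symm
  have h3 : (x + fun i => (n i : ℝ)) =
      ((x + Pi.single 0 (n 0 : ℝ)) + Pi.single 1 (n 1 : ℝ)) + Pi.single 2 (n 2 : ℝ) := by
    ext i
    fin_cases i <;> simp
  rw [h3, h2, h2, h2]

theorem unique {ν T : ℝ} (hν : 0 ≤ ν) (hT : 0 < T) {f : ℝ → (Fin 3 → ℝ) → Fin 3 → ℝ}
    {u ut v vt : ℝ → (Fin 3 → ℝ) → Fin 3 → ℝ}
    {ux uxx vx vxx : Fin 3 → ℝ → (Fin 3 → ℝ) → Fin 3 → ℝ} {p q : ℝ → (Fin 3 → ℝ) → ℝ}
    {px qx : Fin 3 → ℝ → (Fin 3 → ℝ) → ℝ} (hu : Sol ν T f u ut ux uxx p px)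
    (hv : Sol ν T f v vt vx vxx q qx) :
    ∀ t ∈ Icc 0 T, ∀ x, u t x = v t x ∧ p t x = q t x := by
  have ck : ∀ {g : ℝ → (Fin 3 → ℝ) → Fin 3 → ℝ} (k : Fin 3),
      ContinuousOn (fun z : ℝ × (Fin 3 → ℝ) => g z.1 z.2) (Icc 0 T ×ˢ univ) →
      ContinuousOn (fun z : ℝ × (Fin 3 → ℝ) => g z.1 z.2 k) (Icc 0 T ×ˢ univ) := fun k h =>
    (continuous_apply k).comp_continuousOn h
  -- the energy density and its time derivative
  let e : ℝ → (Fin 3 → ℝ) → ℝ := fun t x => ∑ k, (u t x k - v t x k) ^ 2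
  let e' : ℝ → (Fin 3 → ℝ) → ℝ := fun t x =>
    ∑ k, 2 * (u t x k - v t x k) * (ut t x k - vt t x k)
  have ce : ContinuousOn (fun z : ℝ × (Fin 3 → ℝ) => e z.1 z.2) (Icc 0 T ×ˢ univ) :=
    continuousOn_finsetSum _ fun k _ => ((ck k hu.cont_u).sub (ck k hv.cont_u)).pow 2
  have ce' : ContinuousOn (fun z : ℝ × (Fin 3 → ℝ) => e' z.1 z.2) (Icc 0 T ×ˢ univ) :=
    continuousOn_finsetSum _ fun k _ =>
      (continuousOn_const.mul ((ck k hu.cont_u).sub (ck k hv.cont_u))).mul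
        ((ck k hu.cont_ut).sub (ck k hv.cont_ut))
  obtain ⟨C, hC0, hC⟩ := cube_bound ce
  obtain ⟨C', hC'0, hC'⟩ := cube_bound ce'
  have hM : ∃ M : ℝ, 0 ≤ M ∧ ∀ t ∈ Icc 0 T, ∀ x ∈ Icc (0 : Fin 3 → ℝ) 1, ∀ i k,
      |vx i t x k| ≤ M := by
    have h1 : ∀ i k, ∃ C : ℝ, 0 ≤ C ∧ ∀ t ∈ Icc 0 T, ∀ x ∈ Icc (0 : Fin 3 → ℝ) 1,
        |vx i t x k| ≤ C := fun i k => cube_bound (ck k (hv.cont_ux i))
    choose c hc0 hc using h1
    refine ⟨∑ i, ∑ k, c i k, Finset.sum_nonneg fun i _ => Finset.sum_nonneg fun k _ => hc0 i k,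
      fun t ht x hx i k => (hc i k t ht x hx).trans ?_⟩
    calc c i k ≤ ∑ k, c i k :=
          Finset.single_le_sum (f := fun k => c i k) (fun k _ => hc0 i k) (Finset.mem_univ k)
      _ ≤ _ := Finset.single_le_sum (f := fun i => ∑ k, c i k)
          (fun i _ => Finset.sum_nonneg fun k _ => hc0 i k) (Finset.mem_univ i)
  obtain ⟨M, hM0, hM⟩ := hM
  let μ : Measure (Fin 3 → ℝ) := volume.restrict (Icc (0 : Fin 3 → ℝ) 1)
  have hfin : IsFiniteMeasure μ := ⟨by
    rw [Measure.restrict_apply_univ]; exact isCompact_Icc.measure_lt_top⟩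
  let E : ℝ → ℝ := fun t => ∫ x in Icc (0 : Fin 3 → ℝ) 1, e t x
  have hEc : ContinuousOn E (Icc 0 T) := by
    refine continuousOn_of_dominated (bound := fun _ => C) (fun t ht => ?_) (fun t ht => ?_)
      (integrable_const C) (Filter.Eventually.of_forall fun x => line_cont ce x)
    · exact (slice_cont ce ht).aestronglyMeasurable
    · exact (ae_restrict_iff' measurableSet_Icc).2 (Filter.Eventually.of_forall fun x hx =>
        hC t ht x hx)
  have hEd : ∀ t ∈ Ioo 0 T, HasDerivAt E (∫ x in Icc (0 : Fin 3 → ℝ) 1, e' t x) t := by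
    intro t ht
    have hsub : Ioo 0 T ⊆ Icc 0 T := Ioo_subset_Icc_self
    refine (hasDerivAt_integral_of_dominated_loc_of_deriv_le (s := Ioo 0 T)
      (bound := fun _ => C') (Ioo_mem_nhds ht.1 ht.2) ?_ ?_ ?_ ?_ (integrable_const C') ?_).2
    · exact Filter.mem_of_superset (Ioo_mem_nhds ht.1 ht.2) fun s hs =>
        (slice_cont ce (hsub hs)).aestronglyMeasurable
    · exact (slice_cont ce (hsub ht)).continuousOn.integrableOn_compact isCompact_Icc
    · exact (slice_cont ce' (hsub ht)).aestronglyMeasurable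
    · exact (ae_restrict_iff' measurableSet_Icc).2 (Filter.Eventually.of_forall fun x hx s hs =>
        hC' s (hsub hs) x hx)
    · refine Filter.Eventually.of_forall fun x s hs => ?_
      refine HasDerivAt.fun_sum fun k _ => ?_
      have := ((hu.hut s hs x k).fun_sub (hv.hut s hs x k)).fun_pow 2
      simpa using this
  have hE' : ∀ t ∈ Ioo 0 T, ∫ x in Icc (0 : Fin 3 → ℝ) 1, e' t x ≤ 6 * M * E t := by
    intro t ht
    have ht' : t ∈ Icc 0 T := Ioo_subset_Icc_self ht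
    exact slice hν (fun x i => hu.per_u t ht' x i) (fun x i => hv.per_u t ht' x i)
      (fun x i => hu.per_p t ht' x i) (fun x i => hv.per_p t ht' x i)
      (slice_cont hu.cont_u ht') (slice_cont hv.cont_u ht')
      (fun i => slice_cont (hu.cont_ux i) ht') (fun i => slice_cont (hv.cont_ux i) ht')
      (fun i => slice_cont (hu.cont_uxx i) ht') (fun i => slice_cont (hv.cont_uxx i) ht')
      (slice_cont hu.cont_p ht') (slice_cont hv.cont_p ht')
      (fun i => slice_cont (hu.cont_px i) ht') (fun i => slice_cont (hv.cont_px i) ht')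
      (hu.hux t ht) (hv.hux t ht) (hu.huxx t ht) (hv.huxx t ht) (hu.hpx t ht) (hv.hpx t ht)
      (hu.eq t ht) (hv.eq t ht) (hu.div t ht) (hv.div t ht) (hM t ht')
  -- Gronwall
  let g : ℝ → ℝ := fun t => E t * Real.exp (-(6 * M) * t)
  have hg : AntitoneOn g (Icc 0 T) := by
    have hd : ∀ t ∈ Ioo 0 T, HasDerivAt g ((∫ x in Icc (0 : Fin 3 → ℝ) 1, e' t x) *
        Real.exp (-(6 * M) * t) + E t * (Real.exp (-(6 * M) * t) * (-(6 * M)))) t := by
      intro t ht
      have h1 : HasDerivAt (fun t => Real.exp (-(6 * M) * t))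
          (Real.exp (-(6 * M) * t) * (-(6 * M))) t := by
        have := ((hasDerivAt_id t).const_mul (-(6 * M))).exp
        simpa using this
      exact (hEd t ht).mul h1
    refine antitoneOn_of_deriv_nonpos (convex_Icc 0 T) ?_ ?_ ?_
    · exact hEc.mul (by fun_prop)
    · rw [interior_Icc]
      exact fun t ht => (hd t ht).differentiableAt.differentiableWithinAt
    · rw [interior_Icc]
      intro t ht
      rw [(hd t ht).deriv]
      have h1 := hE' t ht
      have h2 := Real.exp_pos (-(6 * M) * t)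
      nlinarith
  have he0 : ∀ t x, 0 ≤ e t x := fun t x => Finset.sum_nonneg fun k _ => sq_nonneg _
  have hE0 : E 0 = 0 := by
    have : ∀ x, e 0 x = 0 := fun x => by simp [e, hu.init, hv.init]
    simp [E, this]
  have hEz : ∀ t ∈ Icc 0 T, E t = 0 := by
    intro t ht
    have h1 := hg (left_mem_Icc.2 hT.le) ht ht.1
    have h2 : g 0 = 0 := by simp [g, hE0]
    rw [h2] at h1
    have h3 : 0 ≤ E t := integral_nonneg fun x => he0 t x
    have h4 := Real.exp_pos (-(6 * M) * t)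
    have h5 : E t * Real.exp (-(6 * M) * t) ≤ 0 := h1
    nlinarith
  have hsub : Icc (0 : Fin 3 → ℝ) 1 ⊆ closure (interior (Icc (0 : Fin 3 → ℝ) 1)) :=
    closure_interior_cube.symm.subset
  have huv1 : ∀ t ∈ Icc 0 T, ∀ x ∈ Icc (0 : Fin 3 → ℝ) 1, e t x = 0 := by
    intro t ht
    have hc := slice_cont ce ht
    have h1 : e t =ᵐ[volume.restrict (Icc (0 : Fin 3 → ℝ) 1)] fun _ => 0 :=
      (setIntegral_eq_zero_iff_of_nonneg_ae (Filter.Eventually.of_forall fun x => he0 t x)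
        (hc.continuousOn.integrableOn_compact isCompact_Icc)).1 (hEz t ht)
    exact Measure.eqOn_of_ae_eq h1 hc.continuousOn continuousOn_const hsub
  have huv : ∀ t ∈ Icc 0 T, ∀ x, u t x = v t x := by
    intro t ht x
    obtain ⟨y, hy, n, rfl⟩ := exists_cube x
    rw [per_int (hu.per_u t ht), per_int (hv.per_u t ht)]
    ext k
    have h1 := huv1 t ht y hy
    have h2 := (Finset.sum_eq_zero_iff_of_nonneg (fun k _ => sq_nonneg (u t y k - v t y k))).1 h1
      k (Finset.mem_univ k)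
    have h3 := pow_eq_zero_iff (two_ne_zero) |>.1 h2
    linarith
  -- pressure
  have hut : ∀ t ∈ Ioo 0 T, ∀ x k, ut t x k = vt t x k := by
    intro t ht x k
    have h1 := hu.hut t ht x k
    have h2 : HasDerivAt (fun s => u s x k) (vt t x k) t :=
      (hv.hut t ht x k).congr_of_eventuallyEq (Filter.mem_of_superset (Ioo_mem_nhds ht.1 ht.2)
        fun s hs => by
          change u s x k = v s x k
          rw [huv s (Ioo_subset_Icc_self hs)])
    exact h1.unique h2
  have hux : ∀ t ∈ Ioo 0 T, ∀ x i k, ux i t x k = vx i t x k := by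
    intro t ht x i k
    have h1 := hu.hux t ht x i k
    simp only [huv t (Ioo_subset_Icc_self ht)] at h1
    exact h1.unique (hv.hux t ht x i k)
  have huxx : ∀ t ∈ Ioo 0 T, ∀ x i k, uxx i t x k = vxx i t x k := by
    intro t ht x i k
    have h1 := hu.huxx t ht x i k
    simp only [hux t ht] at h1
    exact h1.unique (hv.huxx t ht x i k)
  have hpx : ∀ t ∈ Ioo 0 T, ∀ x k, px k t x = qx k t x := by
    intro t ht x k
    have h1 := hu.eq t ht x k
    have h2 := hv.eq t ht x k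
    simp only [hut t ht, hux t ht, huxx t ht, huv t (Ioo_subset_Icc_self ht)] at h1
    linarith
  have hpq1 : ∀ t ∈ Ioo 0 T, ∀ x, p t x = q t x := by
    intro t ht
    have ht' := Ioo_subset_Icc_self ht
    let r : (Fin 3 → ℝ) → ℝ := fun x => p t x - q t x
    have hr : ∀ x i, HasDerivAt (fun s => r (Function.update x i s)) 0 (x i) := by
      intro x i
      have := (hu.hpx t ht x i).fun_sub (hv.hpx t ht x i)
      rwa [hpx t ht, sub_self] at this
    have hr1 : ∀ x i s, r (Function.update x i s) = r x := by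
      intro x i s
      have h1 : ∀ s', HasDerivAt (fun s => r (Function.update x i s)) 0 s' := by
        intro s'
        have := hr (Function.update x i s') i
        simpa using this
      have h2 := is_const_of_deriv_eq_zero (fun s' => (h1 s').differentiableAt)
        (fun s' => (h1 s').deriv) s (x i)
      simpa using h2
    have hr2 : ∀ x, r x = r 0 := by
      intro x
      have h1 : Function.update (Function.update (Function.update x 0 0) 1 0) 2 0 =
          (0 : Fin 3 → ℝ) := by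
        ext i
        fin_cases i <;> simp [Function.update]
      rw [← h1, hr1, hr1, hr1]
    have h1 : ∫ x in Icc (0 : Fin 3 → ℝ) 1, r x = 0 := by
      have := integral_sub (μ := volume.restrict (Icc (0 : Fin 3 → ℝ) 1))
        ((slice_cont hu.cont_p ht').continuousOn.integrableOn_compact isCompact_Icc)
        ((slice_cont hv.cont_p ht').continuousOn.integrableOn_compact isCompact_Icc)
      rw [hu.mean t ht', hv.mean t ht', sub_self] at this
      exact this
    have h2 : ∫ x in Icc (0 : Fin 3 → ℝ) 1, r x = r 0 := by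
      simp only [hr2]
      rw [setIntegral_const, Measure.real, Real.volume_Icc_pi]
      simp
    intro x
    have h3 := hr2 x
    rw [← h2, h1] at h3
    exact sub_eq_zero.1 h3
  intro t ht x
  refine ⟨huv t ht x, ?_⟩
  have h1 : Set.EqOn (fun t => p t x) (fun t => q t x) (Icc 0 T) :=
    Set.EqOn.of_subset_closure (s := Ioo 0 T) (fun t ht => hpq1 t ht x) (line_cont hu.cont_p x)
      (line_cont hv.cont_p x) Ioo_subset_Icc_self (closure_Ioo hT.ne).symm.subset
  exact h1 ht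

end Vale.Agent.P113.H818
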