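import Vale.Agent.P113.Defs
import Vale.Agent.P113.H818.Uniq

/-!
P113, part B: uniqueness of classical solutions in the form of `Defs.lean`, and restriction of a
solution on `[0, ∞)` to `[0, T]`.
-/

open MeasureTheory Set

namespace Vale.Agent.P113.H818

theorem hasPd_hasDerivAt {g : E → ℝ} {i : Fin 3} (h : HasPd i g) (x : E) :
    HasDerivAt (fun s => g (Function.update x i s)) (pd i g x) (x i) :=
  (h x).hasDerivAt

theorem sol_of_classical {ν T : ℝ} {f : ℝ → E → E} {u : ℝ → E → E} {p : ℝ → E → ℝ}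
    (h : IsClassicalSolution ν f (Icc 0 T) u p) :
    Sol ν T f u (fun t x k => derivWithin (fun s => u s x k) (Icc 0 T) t)
      (fun i t x k => pd i (fun y => u t y k) x)
      (fun i t x k => pd i (pd i (fun y => u t y k)) x) p (fun i t x => pd i (p t) x) where
  per_u t ht x i := by
    have h1 := h.u_periodic t ht x (Pi.single i 1)
    have h2 : (fun j => ((Pi.single i 1 : Fin 3 → ℤ) j : ℝ)) = Pi.single i (1 : ℝ) := by
      ext j
      by_cases hj : j = i
      · subst hj; simp
      · simp [Pi.single_eq_of_ne hj]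
    rwa [h2] at h1
  per_p t ht x i := by
    have h1 := h.p_periodic t ht x (Pi.single i 1)
    have h2 : (fun j => ((Pi.single i 1 : Fin 3 → ℤ) j : ℝ)) = Pi.single i (1 : ℝ) := by
      ext j
      by_cases hj : j = i
      · subst hj; simp
      · simp [Pi.single_eq_of_ne hj]
    rwa [h2] at h1
  cont_u := h.u_cont
  cont_ut := continuousOn_pi.2 fun k => h.ut_cont k
  cont_ux i := continuousOn_pi.2 fun k => h.ux_cont k i
  cont_uxx i := continuousOn_pi.2 fun k => h.uxx_cont k i i
  cont_p := h.p_cont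
  cont_px := h.px_cont
  hut t ht x k := (h.ut_diff t (Ioo_subset_Icc_self ht) x k).hasDerivWithinAt.hasDerivAt
    (Icc_mem_nhds ht.1 ht.2)
  hux t ht x i k := hasPd_hasDerivAt (h.ux_diff t (Ioo_subset_Icc_self ht) k i) x
  huxx t ht x i k := hasPd_hasDerivAt (h.uxx_diff t (Ioo_subset_Icc_self ht) k i i) x
  hpx t ht x i := hasPd_hasDerivAt (h.px_diff t (Ioo_subset_Icc_self ht) i) x
  eq t ht x k := h.momentum t (Ioo_subset_Icc_self ht) x k
  div t ht x := h.div_free t (Ioo_subset_Icc_self ht) x
  init := h.initial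
  mean := h.mean_zero

/-- **Uniqueness** of classical solutions on `[0, T]`. -/
theorem classical_unique {ν : ℝ} (hν : 0 ≤ ν) {f : ℝ → E → E} {T : ℝ} (hT : 0 < T)
    {u v : ℝ → E → E} {p q : ℝ → E → ℝ} (hu : IsClassicalSolution ν f (Icc 0 T) u p)
    (hv : IsClassicalSolution ν f (Icc 0 T) v q) :
    ∀ t ∈ Icc 0 T, v t = u t ∧ q t = p t := fun t ht =>
  ⟨funext fun x => ((unique hν hT (sol_of_classical hu) (sol_of_classical hv) t ht x).1).symm,
    funext fun x => ((unique hν hT (sol_of_classical hu) (sol_of_classical hv) t ht x).2).symm⟩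

/-- the restriction of a classical solution on `[0, ∞)` to `[0, T]` -/
theorem restrict_Icc {ν : ℝ} {f : ℝ → E → E} {u : ℝ → E → E} {p : ℝ → E → ℝ}
    (h : IsClassicalSolution ν f (Ici 0) u p) {T : ℝ} (hT : 0 < T) :
    IsClassicalSolution ν f (Icc 0 T) u p := by
  have hsub : Icc 0 T ⊆ Ici 0 := Icc_subset_Ici_self
  have hp : (Icc 0 T ×ˢ univ : Set (ℝ × E)) ⊆ Ici 0 ×ˢ univ := prod_mono_left hsub
  have hder : ∀ t ∈ Icc 0 T, ∀ x i, derivWithin (fun s => u s x i) (Icc 0 T) t =
      derivWithin (fun s => u s x i) (Ici 0) t := fun t ht x i =>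
    ((h.ut_diff t (hsub ht) x i).hasDerivWithinAt.mono hsub).derivWithin
      (uniqueDiffOn_Icc hT t ht)
  exact
    { u_periodic := fun t ht => h.u_periodic t (hsub ht)
      p_periodic := fun t ht => h.p_periodic t (hsub ht)
      u_cont := h.u_cont.mono hp
      ut_diff := fun t ht x i => (h.ut_diff t (hsub ht) x i).mono hsub
      ut_cont := fun i => ((h.ut_cont i).mono hp).congr fun z hz => hder z.1 hz.1 z.2 i
      ux_diff := fun t ht => h.ux_diff t (hsub ht)
      ux_cont := fun i j => (h.ux_cont i j).mono hp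
      uxx_diff := fun t ht => h.uxx_diff t (hsub ht)
      uxx_cont := fun i j k => (h.uxx_cont i j k).mono hp
      p_cont := h.p_cont.mono hp
      px_diff := fun t ht => h.px_diff t (hsub ht)
      px_cont := fun j => (h.px_cont j).mono hp
      mean_zero := fun t ht => h.mean_zero t (hsub ht)
      momentum := fun t ht x i => by rw [hder t ht x i]; exact h.momentum t (hsub ht) x i
      div_free := fun t ht => h.div_free t (hsub ht)
      initial := h.initial }

/-- Uniqueness in the form of the main statement. -/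
theorem global_unique {ν : ℝ} (hν : 0 ≤ ν) {f : ℝ → E → E} {u : ℝ → E → E} {p : ℝ → E → ℝ}
    (hu : IsClassicalSolution ν f (Ici 0) u p) :
    ∀ T : ℝ, 0 < T → ∀ (v : ℝ → E → E) (q : ℝ → E → ℝ),
      IsClassicalSolution ν f (Icc 0 T) v q → ∀ t ∈ Icc 0 T, v t = u t ∧ q t = p t :=
  fun _ hT _ _ hv => classical_unique hν hT (restrict_Icc hu hT) hv

end Vale.Agent.P113.H818
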