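import Vale.Agent.P113.Defs
import Vale.Agent.P113.H799.R

/-!
P113: for valid term codes the force is smooth on `ℝ × ℝ³` and `ℤ³`-periodic in `x`.
-/

open Set
open scoped ContDiff

namespace Vale.Agent.P113.H818

theorem bump_nice : ∀ {c : BumpCode}, BumpCode.Valid c → R.Nice (bump c)
  | .inl (k, j, _, b), h => R.nice_bumpR k j (qval b) h.2.2
  | .inr (k, _, _, b), h => R.nice_bumpP k (qval b) h.2.2.2.2.le h.2.2.2.1

theorem contDiff_bump {c : BumpCode} (h : BumpCode.Valid c) : ContDiff ℝ ∞ (bump c) :=
  (bump_nice h).smooth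

theorem contDiff_periodize_bump {c : BumpCode} (h : BumpCode.Valid c) :
    ContDiff ℝ ∞ (periodize (bump c)) :=
  R.contDiff_periodize (bump_nice h)

theorem contDiff_list_prod {α F : Type*} [NormedAddCommGroup F] [NormedSpace ℝ F] (l : List α)
    (g : α → F → ℝ) (h : ∀ a ∈ l, ContDiff ℝ ∞ (g a)) :
    ContDiff ℝ ∞ fun z => (l.map fun a => g a z).prod := by
  induction l with
  | nil => simpa using contDiff_const
  | cons a l ih =>
    simp only [List.map_cons, List.prod_cons]
    exact (h a (by simp)).mul (ih fun b hb => h b (by simp [hb]))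

theorem contDiff_list_sum {α F : Type*} [NormedAddCommGroup F] [NormedSpace ℝ F] (l : List α)
    (g : α → F → ℝ) (h : ∀ a ∈ l, ContDiff ℝ ∞ (g a)) :
    ContDiff ℝ ∞ fun z => (l.map fun a => g a z).sum := by
  induction l with
  | nil => simpa using contDiff_const
  | cons a l ih =>
    simp only [List.map_cons, List.sum_cons]
    exact (h a (by simp)).add (ih fun b hb => h b (by simp [hb]))

/-- every valid term is smooth in `(t, x)` on all of `ℝ × ℝ³` -/
theorem contDiff_termVal (ν : ℝ) : ∀ {τ : TermCode}, TermCode.Valid τ →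
    ContDiff ℝ ∞ fun z : ℝ × E => termVal ν τ z.1 z.2
  | (q, m, n, rs, θ, h), ⟨_, _, hθ, hh⟩ => by
    have h1 : ContDiff ℝ ∞ fun z : ℝ × E =>
        (θ.map fun g => if g.1 then periodize (bump g.2) z.1 else bump g.2 z.1).prod := by
      refine contDiff_list_prod θ (fun g (z : ℝ × E) =>
        if g.1 then periodize (bump g.2) z.1 else bump g.2 z.1) fun g hg => ?_
      by_cases hg1 : g.1 = true
      · simp only [hg1, if_true]
        exact (contDiff_periodize_bump (hθ g hg)).comp contDiff_fst
      · simp only [hg1]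
        exact (contDiff_bump (hθ g hg)).comp contDiff_fst
    have h2 : ContDiff ℝ ∞ fun z : ℝ × E =>
        ∏ i, ((h i).map fun g => periodize (bump g) (z.2 i)).prod := by
      refine contDiff_prod fun i _ => ?_
      refine contDiff_list_prod (h i) (fun g (z : ℝ × E) => periodize (bump g) (z.2 i))
        fun g hg => ?_
      exact (contDiff_periodize_bump (hh i g hg)).comp
        ((contDiff_apply ℝ ℝ i).comp contDiff_snd)
    exact (contDiff_const.mul h1).mul h2

/-- the force given by valid codes is smooth on all of `ℝ × ℝ³` -/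
theorem contDiff_forceVal (ν : ℝ) {F : Fin 3 → List TermCode}
    (hF : ∀ i, ∀ τ ∈ F i, TermCode.Valid τ) :
    ContDiff ℝ ∞ fun z : ℝ × E => forceVal ν F z.1 z.2 := by
  rw [contDiff_pi]
  intro i
  exact contDiff_list_sum (F i) (fun τ (z : ℝ × E) => termVal ν τ z.1 z.2)
    fun τ hτ => contDiff_termVal ν (hF i τ hτ)

/-- every term is `ℤ³`-periodic in `x` -/
theorem termVal_periodic (ν : ℝ) : ∀ (τ : TermCode) (t : ℝ) (x : E) (k : Fin 3 → ℤ),
    termVal ν τ t (x + fun i => (k i : ℝ)) = termVal ν τ t x
  | (q, m, n, rs, θ, h), t, x, k => by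
    unfold termVal
    simp only [Pi.add_apply, R.periodize_add_int]

/-- the force is `ℤ³`-periodic in `x` -/
theorem forceVal_periodic (ν : ℝ) (F : Fin 3 → List TermCode) (t : ℝ) (x : E) (k : Fin 3 → ℤ) :
    forceVal ν F t (x + fun i => (k i : ℝ)) = forceVal ν F t x := by
  funext i
  unfold forceVal
  simp only [termVal_periodic]

/-- periodic terms are periodic in time as well -/
theorem termVal_time_periodic (ν : ℝ) : ∀ (τ : TermCode), isPeriodic τ = true →
    ∀ (t : ℝ) (x : E), termVal ν τ (t + 1) x = termVal ν τ t x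
  | (q, m, n, rs, θ, h), hp, t, x => by
    have : (θ.map fun g => if g.1 then periodize (bump g.2) (t + 1) else bump g.2 (t + 1)) =
        θ.map fun g => if g.1 then periodize (bump g.2) t else bump g.2 t := by
      apply List.map_congr_left
      intro g hg
      have h1 : g.1 = true := by
        unfold isPeriodic at hp
        exact List.all_eq_true.1 hp g hg
      simp only [h1, if_true, R.periodize_add_one]
    show _ * (θ.map fun g => if g.1 then periodize (bump g.2) (t + 1) else
      bump g.2 (t + 1)).prod * _ = _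
    rw [this]
    rfl

/-- For a force compiler the force is smooth on `ℝ × ℝ³` and `ℤ³`-periodic in `x`. -/
theorem force_smooth {F : Machine × List ℕ → Fin 3 → List TermCode} (hF : IsForceCompiler F)
    (ν : ℝ) (M : Machine) (w : List ℕ) :
    ContDiff ℝ ∞ (fun z : ℝ × E => forceVal ν (F (M, w)) z.1 z.2) ∧
      ∀ t x (k : Fin 3 → ℤ), forceVal ν (F (M, w)) t (x + fun i => (k i : ℝ)) =
        forceVal ν (F (M, w)) t x :=
  ⟨contDiff_forceVal ν fun i τ hτ => hF.valid M w i τ hτ, forceVal_periodic ν _⟩

end Vale.Agent.P113.H818
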