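import Vale.Agent.P113.Iface
import Vale.Agent.P113.H818.Classical

/-! P113: part B of the interface. -/

namespace Vale.Agent.P113.H818

theorem partB : PartB := fun _ hν _ _ v _ q T hT hu hv =>
  global_unique hν.le hu T hT v q hv

end Vale.Agent.P113.H818
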