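import Vale.Agent.P113.H109.Ibp

/-!
P113, part B: uniqueness of classical solutions. The energy inequality at a fixed time.
-/

open MeasureTheory Set

namespace Vale.Agent.P113.H818

/-- partial derivatives of a periodic function are periodic -/
theorem periodic_partial {g g' : (Fin 3 → ℝ) → ℝ} {i : Fin 3}
    (hper : ∀ x, g (x + Pi.single i 1) = g x)
    (hd : ∀ x, HasDerivAt (fun s => g (Function.update x i s)) (g' x) (x i)) (x : Fin 3 → ℝ) :
    g' (x + Pi.single i 1) = g' x := by
  have h1 := hd (x + Pi.single i 1)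
  have e1 : ∀ s, Function.update (x + Pi.single i 1) i s = Function.update x i s := by
    intro s
    ext j
    by_cases hj : j = i
    · subst hj; simp
    · simp [Function.update_of_ne hj, Pi.single_eq_of_ne hj]
  simp only [e1, Pi.add_apply, Pi.single_eq_same] at h1
  have h2 : HasDerivAt (fun s => g (Function.update x i (s + 1))) (g' (x + Pi.single i 1)) (x i) :=
    h1.comp_add_const (x i) 1
  have e2 : ∀ s, Function.update x i (s + 1) = Function.update x i s + Pi.single i 1 := by
    intro s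
    ext j
    by_cases hj : j = i
    · subst hj; simp
    · simp [Function.update_of_ne hj, Pi.single_eq_of_ne hj]
  simp only [e2, hper] at h2
  exact h2.unique (hd x)

variable {ν M : ℝ} {U V UT VT : (Fin 3 → ℝ) → Fin 3 → ℝ}
  {UX VX UXX VXX : Fin 3 → (Fin 3 → ℝ) → Fin 3 → ℝ} {P Q : (Fin 3 → ℝ) → ℝ}
  {PX QX : Fin 3 → (Fin 3 → ℝ) → ℝ} {F : (Fin 3 → ℝ) → Fin 3 → ℝ}

/-- The energy inequality at a fixed time. -/
theorem slice (hν : 0 ≤ ν)
    (perU : ∀ x i, U (x + Pi.single i 1) = U x) (perV : ∀ x i, V (x + Pi.single i 1) = V x)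
    (perP : ∀ x i, P (x + Pi.single i 1) = P x) (perQ : ∀ x i, Q (x + Pi.single i 1) = Q x)
    (cU : Continuous U) (cV : Continuous V) (cUX : ∀ i, Continuous (UX i))
    (cVX : ∀ i, Continuous (VX i)) (cUXX : ∀ i, Continuous (UXX i))
    (cVXX : ∀ i, Continuous (VXX i)) (cP : Continuous P) (cQ : Continuous Q)
    (cPX : ∀ i, Continuous (PX i)) (cQX : ∀ i, Continuous (QX i))
    (hU : ∀ x i k, HasDerivAt (fun s => U (Function.update x i s) k) (UX i x k) (x i))
    (hV : ∀ x i k, HasDerivAt (fun s => V (Function.update x i s) k) (VX i x k) (x i))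
    (hUX : ∀ x i k, HasDerivAt (fun s => UX i (Function.update x i s) k) (UXX i x k) (x i))
    (hVX : ∀ x i k, HasDerivAt (fun s => VX i (Function.update x i s) k) (VXX i x k) (x i))
    (hP : ∀ x i, HasDerivAt (fun s => P (Function.update x i s)) (PX i x) (x i))
    (hQ : ∀ x i, HasDerivAt (fun s => Q (Function.update x i s)) (QX i x) (x i))
    (eqU : ∀ x k, UT x k + ∑ i, U x i * UX i x k = -PX k x + ν * ∑ i, UXX i x k + F x k)
    (eqV : ∀ x k, VT x k + ∑ i, V x i * VX i x k = -QX k x + ν * ∑ i, VXX i x k + F x k)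
    (divU : ∀ x, ∑ i, UX i x i = 0) (divV : ∀ x, ∑ i, VX i x i = 0)
    (bV : ∀ x ∈ Icc (0 : Fin 3 → ℝ) 1, ∀ i k, |VX i x k| ≤ M) :
    ∫ x in Icc (0 : Fin 3 → ℝ) 1, ∑ k, 2 * (U x k - V x k) * (UT x k - VT x k) ≤
      6 * M * ∫ x in Icc (0 : Fin 3 → ℝ) 1, ∑ k, (U x k - V x k) ^ 2 := by
  -- the flux
  let G : Fin 3 → (Fin 3 → ℝ) → ℝ := fun i x =>
    -(1 / 2) * (U x i * ∑ k, (U x k - V x k) ^ 2) - (U x i - V x i) * (P x - Q x) +
      ν * ∑ k, (U x k - V x k) * (UX i x k - VX i x k)
  let G' : Fin 3 → (Fin 3 → ℝ) → ℝ := fun i x =>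
    -(1 / 2) * (UX i x i * ∑ k, (U x k - V x k) ^ 2 +
      U x i * ∑ k, 2 * (U x k - V x k) * (UX i x k - VX i x k)) -
      ((UX i x i - VX i x i) * (P x - Q x) + (U x i - V x i) * (PX i x - QX i x)) +
      ν * ∑ k, ((UX i x k - VX i x k) * (UX i x k - VX i x k) +
        (U x k - V x k) * (UXX i x k - VXX i x k))
  have cUk : ∀ k, Continuous fun x => U x k := fun k => (continuous_apply k).comp cU
  have cVk : ∀ k, Continuous fun x => V x k := fun k => (continuous_apply k).comp cV
  have cUXk : ∀ i k, Continuous fun x => UX i x k := fun i k => (continuous_apply k).comp (cUX i)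
  have cVXk : ∀ i k, Continuous fun x => VX i x k := fun i k => (continuous_apply k).comp (cVX i)
  have cUXXk : ∀ i k, Continuous fun x => UXX i x k := fun i k =>
    (continuous_apply k).comp (cUXX i)
  have cVXXk : ∀ i k, Continuous fun x => VXX i x k := fun i k =>
    (continuous_apply k).comp (cVXX i)
  have hG' : ∀ i, Continuous (G' i) := by
    intro i
    have h1 : Continuous fun x => ∑ k, (U x k - V x k) ^ 2 :=
      continuous_finsetSum _ fun k _ => ((cUk k).sub (cVk k)).pow 2
    have h2 : Continuous fun x => ∑ k, 2 * (U x k - V x k) * (UX i x k - VX i x k) :=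
      continuous_finsetSum _ fun k _ =>
        (continuous_const.mul ((cUk k).sub (cVk k))).mul ((cUXk i k).sub (cVXk i k))
    have h3 : Continuous fun x => ∑ k, ((UX i x k - VX i x k) * (UX i x k - VX i x k) +
        (U x k - V x k) * (UXX i x k - VXX i x k)) :=
      continuous_finsetSum _ fun k _ =>
        (((cUXk i k).sub (cVXk i k)).mul ((cUXk i k).sub (cVXk i k))).add
          (((cUk k).sub (cVk k)).mul ((cUXXk i k).sub (cVXXk i k)))
    exact ((continuous_const.mul (((cUXk i i).mul h1).add ((cUk i).mul h2))).sub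
      ((((cUXk i i).sub (cVXk i i)).mul (cP.sub cQ)).add
        (((cUk i).sub (cVk i)).mul ((cPX i).sub (cQX i))))).add (continuous_const.mul h3)
  have hGd : ∀ i x, HasDerivAt (fun s => G i (Function.update x i s)) (G' i x) (x i) := by
    intro i x
    have hu : ∀ k, HasDerivAt (fun s => U (Function.update x i s) k) (UX i x k) (x i) := hU x i
    have hv : ∀ k, HasDerivAt (fun s => V (Function.update x i s) k) (VX i x k) (x i) := hV x i
    have e : Function.update x i (x i) = x := Function.update_eq_self i x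
    have h1 : HasDerivAt (fun s => ∑ k, (U (Function.update x i s) k - V (Function.update x i s) k) ^ 2)
        (∑ k, 2 * (U x k - V x k) * (UX i x k - VX i x k)) (x i) := by
      refine HasDerivAt.fun_sum fun k _ => ?_
      have := ((hu k).fun_sub (hv k)).fun_pow 2
      simpa [e] using this
    have h2 : HasDerivAt (fun s => ∑ k, (U (Function.update x i s) k - V (Function.update x i s) k) *
        (UX i (Function.update x i s) k - VX i (Function.update x i s) k))
        (∑ k, ((UX i x k - VX i x k) * (UX i x k - VX i x k) +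
        (U x k - V x k) * (UXX i x k - VXX i x k))) (x i) := by
      refine HasDerivAt.fun_sum fun k _ => ?_
      have := ((hu k).fun_sub (hv k)).fun_mul ((hUX x i k).fun_sub (hVX x i k))
      simpa [e] using this
    have h3 := ((((hu i).fun_mul h1).const_mul (-(1 / 2))).fun_sub
      (((hu i).fun_sub (hv i)).fun_mul ((hP x i).fun_sub (hQ x i)))).fun_add (h2.const_mul ν)
    simp only [e] at h3
    exact h3
  have hGper : ∀ i x, G i (x + Pi.single i 1) = G i x := by
    intro i x
    have h1 : ∀ k, UX i (x + Pi.single i 1) k = UX i x k := fun k =>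
      periodic_partial (g := fun y => U y k) (g' := fun y => UX i y k)
        (fun y => by simp only [perU]) (fun y => hU y i k) x
    have h2 : ∀ k, VX i (x + Pi.single i 1) k = VX i x k := fun k =>
      periodic_partial (g := fun y => V y k) (g' := fun y => VX i y k)
        (fun y => by simp only [perV]) (fun y => hV y i k) x
    simp only [G, perU, perV, perP, perQ, h1, h2]
  have hint : ∀ i, ∫ x in Icc (0 : Fin 3 → ℝ) 1, G' i x = 0 := fun i =>
    H109.integral_partial_eq_zero i (G i) (G' i) (hGper i) (hGd i) (hG' i)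
  have hic : ∀ {g : (Fin 3 → ℝ) → ℝ}, Continuous g →
      IntegrableOn g (Icc (0 : Fin 3 → ℝ) 1) volume := fun hg =>
    hg.continuousOn.integrableOn_compact isCompact_Icc
  have hsum : ∫ x in Icc (0 : Fin 3 → ℝ) 1, ∑ i, G' i x = 0 := by
    rw [integral_finsetSum _ fun i _ => hic (hG' i)]
    simp [hint]
  -- pointwise identity
  have hpt : ∀ x, ∑ k, 2 * (U x k - V x k) * (UT x k - VT x k) = 2 * ∑ i, G' i x -
      2 * ν * ∑ i, ∑ k, (UX i x k - VX i x k) ^ 2 -
      2 * ∑ i, ∑ k, (U x i - V x i) * (U x k - V x k) * VX i x k := by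
    intro x
    have a0 := eqU x 0
    have a1 := eqU x 1
    have a2 := eqU x 2
    have b0 := eqV x 0
    have b1 := eqV x 1
    have b2 := eqV x 2
    have d1 := divU x
    have d2 := divV x
    simp only [Fin.sum_univ_three] at a0 a1 a2 b0 b1 b2 d1 d2
    simp only [G', Fin.sum_univ_three]
    have e0 : UT x 0 - VT x 0 = -(U x 0 * UX 0 x 0 + U x 1 * UX 1 x 0 + U x 2 * UX 2 x 0) +
        (V x 0 * VX 0 x 0 + V x 1 * VX 1 x 0 + V x 2 * VX 2 x 0) - (PX 0 x - QX 0 x) +
        ν * ((UXX 0 x 0 + UXX 1 x 0 + UXX 2 x 0) - (VXX 0 x 0 + VXX 1 x 0 + VXX 2 x 0)) := by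
      linarith
    have e1 : UT x 1 - VT x 1 = -(U x 0 * UX 0 x 1 + U x 1 * UX 1 x 1 + U x 2 * UX 2 x 1) +
        (V x 0 * VX 0 x 1 + V x 1 * VX 1 x 1 + V x 2 * VX 2 x 1) - (PX 1 x - QX 1 x) +
        ν * ((UXX 0 x 1 + UXX 1 x 1 + UXX 2 x 1) - (VXX 0 x 1 + VXX 1 x 1 + VXX 2 x 1)) := by
      linarith
    have e2 : UT x 2 - VT x 2 = -(U x 0 * UX 0 x 2 + U x 1 * UX 1 x 2 + U x 2 * UX 2 x 2) +
        (V x 0 * VX 0 x 2 + V x 1 * VX 1 x 2 + V x 2 * VX 2 x 2) - (PX 2 x - QX 2 x) +
        ν * ((UXX 0 x 2 + UXX 1 x 2 + UXX 2 x 2) - (VXX 0 x 2 + VXX 1 x 2 + VXX 2 x 2)) := by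
      linarith
    have f1 : UX 2 x 2 = -UX 0 x 0 - UX 1 x 1 := by linarith
    have f2 : VX 2 x 2 = -VX 0 x 0 - VX 1 x 1 := by linarith
    rw [e0, e1, e2, f1, f2]
    ring
  -- the bound
  have hbd : ∀ x ∈ Icc (0 : Fin 3 → ℝ) 1,
      -2 * ν * ∑ i, ∑ k, (UX i x k - VX i x k) ^ 2 -
      2 * ∑ i, ∑ k, (U x i - V x i) * (U x k - V x k) * VX i x k ≤
      6 * M * ∑ k, (U x k - V x k) ^ 2 := by
    intro x hx
    have h1 : 0 ≤ ∑ i, ∑ k, (UX i x k - VX i x k) ^ 2 :=
      Finset.sum_nonneg fun i _ => Finset.sum_nonneg fun k _ => sq_nonneg _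
    have h2 : ∀ i k, -((U x i - V x i) * (U x k - V x k) * VX i x k) ≤
        M / 2 * ((U x i - V x i) ^ 2 + (U x k - V x k) ^ 2) := by
      intro i k
      have h3 : |(U x i - V x i) * (U x k - V x k)| ≤
          1 / 2 * ((U x i - V x i) ^ 2 + (U x k - V x k) ^ 2) := by
        rw [abs_mul]
        nlinarith [sq_nonneg (|U x i - V x i| - |U x k - V x k|), sq_abs (U x i - V x i),
          sq_abs (U x k - V x k)]
      calc -((U x i - V x i) * (U x k - V x k) * VX i x k)
          ≤ |(U x i - V x i) * (U x k - V x k) * VX i x k| := neg_le_abs _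
        _ = |(U x i - V x i) * (U x k - V x k)| * |VX i x k| := abs_mul _ _
        _ ≤ 1 / 2 * ((U x i - V x i) ^ 2 + (U x k - V x k) ^ 2) * M := by
            have := bV x hx i k
            gcongr
        _ = _ := by ring
    have h4 : -∑ i, ∑ k, (U x i - V x i) * (U x k - V x k) * VX i x k ≤
        3 * M * ∑ k, (U x k - V x k) ^ 2 := by
      calc -∑ i, ∑ k, (U x i - V x i) * (U x k - V x k) * VX i x k
          = ∑ i, ∑ k, -((U x i - V x i) * (U x k - V x k) * VX i x k) := by
            simp only [Finset.sum_neg_distrib]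
        _ ≤ ∑ i, ∑ k, M / 2 * ((U x i - V x i) ^ 2 + (U x k - V x k) ^ 2) :=
            Finset.sum_le_sum fun i _ => Finset.sum_le_sum fun k _ => h2 i k
        _ = 3 * M * ∑ k, (U x k - V x k) ^ 2 := by
            simp only [Fin.sum_univ_three]; ring
    have h5 : 0 ≤ 2 * ν * ∑ i, ∑ k, (UX i x k - VX i x k) ^ 2 := by positivity
    linarith
  have c1 : Continuous fun x => ∑ i, G' i x := continuous_finsetSum _ fun i _ => hG' i
  have c2 : Continuous fun x => ∑ i, ∑ k, (UX i x k - VX i x k) ^ 2 :=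
    continuous_finsetSum _ fun i _ => continuous_finsetSum _ fun k _ =>
      ((cUXk i k).sub (cVXk i k)).pow 2
  have c3 : Continuous fun x => ∑ i, ∑ k, (U x i - V x i) * (U x k - V x k) * VX i x k :=
    continuous_finsetSum _ fun i _ => continuous_finsetSum _ fun k _ =>
      (((cUk i).sub (cVk i)).mul ((cUk k).sub (cVk k))).mul (cVXk i k)
  have c4 : Continuous fun x => ∑ k, (U x k - V x k) ^ 2 :=
    continuous_finsetSum _ fun k _ => ((cUk k).sub (cVk k)).pow 2
  calc ∫ x in Icc (0 : Fin 3 → ℝ) 1, ∑ k, 2 * (U x k - V x k) * (UT x k - VT x k)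
      = ∫ x in Icc (0 : Fin 3 → ℝ) 1, (2 * ∑ i, G' i x + (-2 * ν * ∑ i, ∑ k, (UX i x k - VX i x k) ^ 2 -
      2 * ∑ i, ∑ k, (U x i - V x i) * (U x k - V x k) * VX i x k)) := by
        refine integral_congr_ae (Filter.Eventually.of_forall fun x => ?_)
        change ∑ k, 2 * (U x k - V x k) * (UT x k - VT x k) = _
        rw [hpt x]
        ring
    _ = (∫ x in Icc (0 : Fin 3 → ℝ) 1, 2 * ∑ i, G' i x) +
        ∫ x in Icc (0 : Fin 3 → ℝ) 1, (-2 * ν * ∑ i, ∑ k, (UX i x k - VX i x k) ^ 2 -
      2 * ∑ i, ∑ k, (U x i - V x i) * (U x k - V x k) * VX i x k) :=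
        integral_add (hic (continuous_const.mul c1))
          (hic ((continuous_const.mul c2).sub (continuous_const.mul c3)))
    _ = ∫ x in Icc (0 : Fin 3 → ℝ) 1, (-2 * ν * ∑ i, ∑ k, (UX i x k - VX i x k) ^ 2 -
      2 * ∑ i, ∑ k, (U x i - V x i) * (U x k - V x k) * VX i x k) := by
        rw [integral_const_mul, hsum]; simp
    _ ≤ ∫ x in Icc (0 : Fin 3 → ℝ) 1, 6 * M * ∑ k, (U x k - V x k) ^ 2 :=
        setIntegral_mono_on (hic ((continuous_const.mul c2).sub (continuous_const.mul c3)))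
          (hic (continuous_const.mul c4)) measurableSet_Icc hbd
    _ = _ := by rw [integral_const_mul]

end Vale.Agent.P113.H818
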